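import Mathlib.Analysis.Calculus.FDeriv.Symmetric
import Mathlib.Analysis.Calculus.Deriv.Comp
import Mathlib.Analysis.Calculus.Deriv.Prod
import Mathlib.Analysis.Calculus.ContDiff.Operations
import Mathlib.Analysis.Calculus.Deriv.Shift

open scoped Topology ContDiff
open Filter

namespace Vale.Agent.P216

variable {E : Type*} [NormedAddCommGroup E] [NormedSpace ℝ E]

/-- Coordinate core: the orbit of a Killing flow through a critical point of its squared speed
satisfies the geodesic equation. -/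
theorem killing_orbit_eulerLagrange
    (G : E → E →L[ℝ] E →L[ℝ] ℝ) (F : ℝ × E → E) (y₀ : E)
    (hG : ContDiffAt ℝ 2 G y₀) (hF : ContDiffAt ℝ 2 F (0, y₀))
    (hsymm : ∀ u w, G y₀ u w = G y₀ w u)
    (h0 : ∀ᶠ y in 𝓝 y₀, F (0, y) = y)
    (hgroup : ∀ᶠ q : ℝ × ℝ in 𝓝 0, F (q.1 + q.2, y₀) = F (q.2, F (q.1, y₀)))
    (hiso : ∀ u w : E, ∀ᶠ s in 𝓝 (0 : ℝ),
      G (F (s, y₀)) (fderiv ℝ (fun y => F (s, y)) y₀ u) (fderiv ℝ (fun y => F (s, y)) y₀ w)
        = G y₀ u w)
    (hcrit : fderiv ℝ (fun y => G y (fderiv ℝ F (0, y) (1, 0)) (fderiv ℝ F (0, y) (1, 0))) y₀ = 0)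
    (v : E) :
    deriv (fun s => G (F (s, y₀)) (deriv (fun r => F (r, y₀)) s) v) 0 =
      (1 / 2 : ℝ) * fderiv ℝ
        (fun y => G y (deriv (fun r => F (r, y₀)) 0) (deriv (fun r => F (r, y₀)) 0))
        (F (0, y₀)) v := by
  obtain ⟨L, hL⟩ : ∃ L : ℝ × E →L[ℝ] ℝ × E →L[ℝ] E,
      HasFDerivAt (fderiv ℝ F) L (0, y₀) :=
    ⟨_, ((hF.fderiv_right (m := 1) (by norm_num)).differentiableAt (by simp)).hasFDerivAt⟩
  obtain ⟨G', hG'⟩ : ∃ G' : E →L[ℝ] E →L[ℝ] E →L[ℝ] ℝ, HasFDerivAt G G' y₀ :=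
    ⟨_, (hG.differentiableAt (by simp)).hasFDerivAt⟩
  have hsym2 : ∀ a b : ℝ × E, L a b = L b a := by
    intro a b
    refine second_derivative_symmetric_of_eventually (f := F) ?_ hL a b
    filter_upwards [hF.eventually (by simp)] with q hq
    exact (hq.differentiableAt (by simp)).hasFDerivAt
  have hFd : ∀ᶠ q in 𝓝 ((0 : ℝ), y₀), DifferentiableAt ℝ F q := by
    filter_upwards [hF.eventually (by simp)] with q hq
    exact hq.differentiableAt (by simp)
  have hcurve : ContinuousAt (fun s : ℝ => (s, y₀)) 0 :=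
    (continuous_id.prodMk continuous_const).continuousAt
  have hx0 : F (0, y₀) = y₀ := h0.self_of_nhds
  have hxs : ∀ᶠ s in 𝓝 (0 : ℝ), HasDerivAt (fun r => F (r, y₀))
      (fderiv ℝ F (s, y₀) (1, 0)) s := by
    filter_upwards [hcurve.eventually hFd] with s hs
    exact hs.hasFDerivAt.comp_hasDerivAt s ((hasDerivAt_id s).prodMk (hasDerivAt_const s y₀))
  have hxc : ContinuousAt (fun r => F (r, y₀)) 0 := hxs.self_of_nhds.continuousAt
  have hpair : ContinuousAt (fun s : ℝ => ((0 : ℝ), F (s, y₀))) 0 :=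
    continuousAt_const.prodMk hxc
  have hpair' : ∀ᶠ s in 𝓝 (0 : ℝ), DifferentiableAt ℝ F (0, F (s, y₀)) :=
    hpair.eventually (by simp only [hx0]; exact hFd)
  have hgroup' : ∀ᶠ s in 𝓝 (0 : ℝ), ∀ᶠ h in 𝓝 (0 : ℝ),
      F (s + h, y₀) = F (h, F (s, y₀)) := by
    rw [show (0 : ℝ × ℝ) = ((0 : ℝ), (0 : ℝ)) from rfl] at hgroup
    exact hgroup.curry_nhds
  set X : E → E := fun y => fderiv ℝ F (0, y) (1, 0) with hX
  have hvel : ∀ᶠ s in 𝓝 (0 : ℝ), HasDerivAt (fun r => F (r, y₀)) (X (F (s, y₀))) s := by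
    filter_upwards [hxs, hpair', hgroup'] with s h1 h2 h3
    have h4 : HasDerivAt (fun h => F (h, F (s, y₀))) (X (F (s, y₀))) 0 :=
      h2.hasFDerivAt.comp_hasDerivAt (f := fun h : ℝ => (h, F (s, y₀))) 0
        ((hasDerivAt_id (0 : ℝ)).prodMk (hasDerivAt_const (0 : ℝ) _))
    have h5 : HasDerivAt (fun h => F (s + h, y₀)) (X (F (s, y₀))) 0 :=
      h4.congr_of_eventuallyEq h3
    have h6 : HasDerivAt (fun h => F (s + h, y₀)) (fderiv ℝ F (s, y₀) (1, 0)) 0 :=
      HasDerivAt.comp_const_add s 0 (by simpa using h1)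
    rw [h5.unique h6]
    exact h1
  set A : E := X y₀ with hA
  have hX' : HasFDerivAt X
      (((ContinuousLinearMap.apply ℝ E ((1 : ℝ), (0 : E))).comp L).comp
        (ContinuousLinearMap.inr ℝ ℝ E)) y₀ := by
    exact ((ContinuousLinearMap.apply ℝ E ((1 : ℝ), (0 : E))).hasFDerivAt.comp _ hL).comp y₀
      (ContinuousLinearMap.inr ℝ ℝ E).hasFDerivAt
  set DX : E → E := fun u => L (0, u) (1, 0) with hDX
  have hv0 : HasDerivAt (fun r => F (r, y₀)) A 0 := by
    have := hvel.self_of_nhds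
    rwa [hx0] at this
  have hdxf : ∀ᶠ s in 𝓝 (0 : ℝ), deriv (fun r => F (r, y₀)) s = X (F (s, y₀)) :=
    hvel.mono fun s hs => hs.deriv
  have hd : HasFDerivAt (fun y => G y (X y) v)
      (((ContinuousLinearMap.apply ℝ ℝ v).comp ((G y₀).comp
        (((ContinuousLinearMap.apply ℝ E ((1 : ℝ), (0 : E))).comp L).comp
          (ContinuousLinearMap.inr ℝ ℝ E)) + G'.flip A))) y₀ :=
    (ContinuousLinearMap.apply ℝ ℝ v).hasFDerivAt.comp y₀ (hG'.clm_apply hX')
  have hlhs : HasDerivAt (fun s => G (F (s, y₀)) (deriv (fun r => F (r, y₀)) s) v)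
      (G y₀ (DX A) v + G' A A v) 0 := by
    have hd' := hd
    rw [show y₀ = F (0, y₀) from hx0.symm] at hd'
    have h1 := hd'.comp_hasDerivAt (0 : ℝ) hv0
    rw [hx0] at h1
    have h2 : (fun s => G (F (s, y₀)) (deriv (fun r => F (r, y₀)) s) v) =ᶠ[𝓝 0]
        fun s => G (F (s, y₀)) (X (F (s, y₀))) v := by
      filter_upwards [hdxf] with s hs
      simp only [hs]
    refine HasDerivAt.congr_of_eventuallyEq ?_ h2
    simpa [hDX, Function.comp_def] using h1
  -- the Killing equation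
  have hkill : ∀ u w : E, G' A u w + G y₀ (DX u) w + G y₀ u (DX w) = 0 := by
    intro u w
    have hslice : ∀ᶠ s in 𝓝 (0 : ℝ), ∀ z : E,
        fderiv ℝ (fun y => F (s, y)) y₀ z = fderiv ℝ F (s, y₀) (0, z) := by
      filter_upwards [hcurve.eventually hFd] with s hs z
      have h : HasFDerivAt (fun y => F (s, y))
          ((fderiv ℝ F (s, y₀)).comp ((0 : E →L[ℝ] ℝ).prod (ContinuousLinearMap.id ℝ E))) y₀ :=
        hs.hasFDerivAt.comp y₀ ((hasFDerivAt_const s y₀).prodMk (hasFDerivAt_id y₀))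
      rw [h.fderiv]
      simp
    have hder : ∀ z : E, HasDerivAt (fun s => fderiv ℝ F (s, y₀) (0, z)) (DX z) 0 := by
      intro z
      have h := (ContinuousLinearMap.apply ℝ E ((0 : ℝ), z)).hasFDerivAt.comp_hasDerivAt (0 : ℝ)
        (hL.comp_hasDerivAt (f := fun s : ℝ => (s, y₀)) 0
          ((hasDerivAt_id (0 : ℝ)).prodMk (hasDerivAt_const (0 : ℝ) y₀)))
      have e : L (1, 0) (0, z) = DX z := hsym2 _ _
      rw [← e]
      exact h
    have hval : ∀ z : E, fderiv ℝ F (0, y₀) (0, z) = z := by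
      intro z
      rw [← hslice.self_of_nhds z, Filter.EventuallyEq.fderiv_eq (f := fun y => y) h0]
      simp
    have hG'' : HasFDerivAt G G' (F (0, y₀)) := by rw [hx0]; exact hG'
    have hG0 : HasDerivAt (fun s => G (F (s, y₀))) (G' A) 0 :=
      HasFDerivAt.comp_hasDerivAt (F := E) (E := E →L[ℝ] E →L[ℝ] ℝ) (l := G) (0 : ℝ) hG'' hv0
    have h := (hG0.clm_apply (hder u)).clm_apply (hder w)
    have hc : HasDerivAt
        (fun s => G (F (s, y₀)) (fderiv ℝ F (s, y₀) (0, u)) (fderiv ℝ F (s, y₀) (0, w))) 0 0 := by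
      refine (hasDerivAt_const (0 : ℝ) (G y₀ u w)).congr_of_eventuallyEq ?_
      filter_upwards [hiso u w, hslice] with s h1 h2
      rw [← h2 u, ← h2 w]
      exact h1
    have e := h.unique hc
    simpa [hval, hx0] using e
  have hcr : G' v A A + G y₀ (DX v) A + G y₀ A (DX v) = 0 := by
    have h : HasFDerivAt (fun y => G y (X y) (X y)) _ y₀ := (hG'.clm_apply hX').clm_apply hX'
    have e := congrArg (fun T : E →L[ℝ] ℝ => T v) (h.fderiv.symm.trans hcrit)
    simp [← hA] at e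
    linarith
  have hrhs : HasFDerivAt (fun y => G y A A)
      ((G'.flip A).flip A) y₀ := by
    simpa using ((hG'.clm_apply (hasFDerivAt_const A y₀)).clm_apply (hasFDerivAt_const A y₀))
  rw [hlhs.deriv, hv0.deriv, hx0, hrhs.fderiv]
  have hk := hkill A v
  have hs := hsymm (DX v) A
  simp only [ContinuousLinearMap.flip_apply]
  linarith

end Vale.Agent.P216
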