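import Mathlib.Geometry.Manifold.MFDeriv.Atlas
import Mathlib.Geometry.Manifold.VectorBundle.Riemannian
import Mathlib.Geometry.Manifold.ContMDiff.Basic
import Mathlib.Analysis.Calculus.Deriv.Basic

open Bundle Manifold
open scoped ContDiff Topology

namespace Vale.Agent.P216

noncomputable section

variable {E : Type*} [NormedAddCommGroup E] [NormedSpace ℝ E]
  {M : Type*} [TopologicalSpace M] [ChartedSpace E M] [IsManifold 𝓘(ℝ, E) ∞ M]

/-- The matrix of the metric in the coordinates of the preferred chart at `p`,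
as a bilinear form on the model space: the pullback of `g` by the inverse chart. -/
def metricInChart (g : ContMDiffRiemannianMetric 𝓘(ℝ, E) ∞ E (fun x : M => TangentSpace 𝓘(ℝ, E) x))
    (p : M) (y : E) : E →L[ℝ] E →L[ℝ] ℝ :=
  let D : E →L[ℝ] E :=
    mfderiv 𝓘(ℝ, E) 𝓘(ℝ, E) (extChartAt 𝓘(ℝ, E) p).symm y
  let B : E →L[ℝ] E →L[ℝ] ℝ := g.inner ((extChartAt 𝓘(ℝ, E) p).symm y)
  B.bilinearComp D D

/-- A geodesic: a smooth curve which at every time `t` satisfies the Euler-Lagrange equation of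
the energy `(1/2) g(x', x')`, written in the chart centred at `c t`. -/
def IsGeodesic (g : ContMDiffRiemannianMetric 𝓘(ℝ, E) ∞ E (fun x : M => TangentSpace 𝓘(ℝ, E) x))
    (c : ℝ → M) : Prop :=
  ContMDiff 𝓘(ℝ, ℝ) 𝓘(ℝ, E) ∞ c ∧
  ∀ (t : ℝ) (v : E),
    let x : ℝ → E := fun s => extChartAt 𝓘(ℝ, E) (c t) (c s)
    deriv (fun s => metricInChart g (c t) (x s) (deriv x s) v) t =
      (1 / 2 : ℝ) *
        fderiv ℝ (fun y => metricInChart g (c t) y (deriv x t) (deriv x t)) (x t) v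

/-- A closed geodesic: a non-constant geodesic with a positive period. -/
def IsClosedGeodesic
    (g : ContMDiffRiemannianMetric 𝓘(ℝ, E) ∞ E (fun x : M => TangentSpace 𝓘(ℝ, E) x))
    (c : ℝ → M) : Prop :=
  IsGeodesic g c ∧ (∃ τ : ℝ, 0 < τ ∧ ∀ t, c (t + τ) = c t) ∧ ∃ s t : ℝ, c s ≠ c t

/-- The images of the closed geodesics. -/
def closedGeodesicImages
    (g : ContMDiffRiemannianMetric 𝓘(ℝ, E) ∞ E (fun x : M => TangentSpace 𝓘(ℝ, E) x)) :
    Set (Set M) :=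
  {S | ∃ c : ℝ → M, IsClosedGeodesic g c ∧ Set.range c = S}

/-- `h` is a smooth map preserving the metric `g`. -/
def IsLocalIsometry
    (g : ContMDiffRiemannianMetric 𝓘(ℝ, E) ∞ E (fun x : M => TangentSpace 𝓘(ℝ, E) x))
    (h : M → M) : Prop :=
  ContMDiff 𝓘(ℝ, E) 𝓘(ℝ, E) ∞ h ∧
  ∀ (x : M) (u w : TangentSpace 𝓘(ℝ, E) x),
    g.inner (h x) (mfderiv 𝓘(ℝ, E) 𝓘(ℝ, E) h x u) (mfderiv 𝓘(ℝ, E) 𝓘(ℝ, E) h x w)
      = g.inner x u w

end

end Vale.Agent.P216
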