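import Vale.Agent.P216.Defs
import Vale.Agent.P216.Analytic
import Mathlib.Geometry.Manifold.ContMDiffMFDeriv
import Mathlib.Geometry.Manifold.MFDeriv.SpecificFunctions
import Mathlib.Analysis.Calculus.LocalExtr.Basic
import Mathlib.Analysis.Calculus.ContDiff.FiniteDimension
import Mathlib.Analysis.Calculus.MeanValue

open Bundle Manifold Filter
open scoped ContDiff Topology

namespace Vale.Agent.P216

noncomputable section

variable {E : Type*} [NormedAddCommGroup E] [NormedSpace ℝ E] [FiniteDimensional ℝ E]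
  {M : Type*} [TopologicalSpace M] [ChartedSpace E M] [IsManifold 𝓘(ℝ, E) ∞ M]
  {g : ContMDiffRiemannianMetric 𝓘(ℝ, E) ∞ E (fun x : M => TangentSpace 𝓘(ℝ, E) x)}


omit [FiniteDimensional ℝ E] in
theorem metricInChart_apply (p : M) (y u w : E) :
    metricInChart g p y u w =
      g.inner ((extChartAt 𝓘(ℝ, E) p).symm y)
        (mfderiv 𝓘(ℝ, E) 𝓘(ℝ, E) (extChartAt 𝓘(ℝ, E) p).symm y u)
        (mfderiv 𝓘(ℝ, E) 𝓘(ℝ, E) (extChartAt 𝓘(ℝ, E) p).symm y w) := rfl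

theorem contDiffAt_metricInChart {p : M} {y₀ : E}
    (hy : y₀ ∈ (extChartAt 𝓘(ℝ, E) p).target) :
    ContDiffAt ℝ 2 (metricInChart g p) y₀ := by
  have ho := isOpen_extChartAt_target (I := 𝓘(ℝ, E)) p
  set ψ := (extChartAt 𝓘(ℝ, E) p).symm with hψ
  have hψs : ContMDiffOn 𝓘(ℝ, E) 𝓘(ℝ, E) ∞ ψ (extChartAt 𝓘(ℝ, E) p).target :=
    contMDiffOn_extChartAt_symm p
  have hT := hψs.contMDiffOn_tangentMapWithin (m := 2) (by norm_cast) ho.uniqueMDiffOn
  have hv : ∀ u : E, ∀ y₀ ∈ (extChartAt 𝓘(ℝ, E) p).target,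
      ContMDiffAt 𝓘(ℝ, E) (𝓘(ℝ, E).prod 𝓘(ℝ, E)) 2
      (fun y => (TotalSpace.mk' E (ψ y) (mfderiv 𝓘(ℝ, E) 𝓘(ℝ, E) ψ y u) :
        TangentBundle 𝓘(ℝ, E) M)) y₀ := by
    intro u y₀ hy
    have h1 : ContMDiffOn 𝓘(ℝ, E) (𝓘(ℝ, E).prod 𝓘(ℝ, E)) 2
        (fun y => (TotalSpace.mk' E y u : TangentBundle 𝓘(ℝ, E) E))
        (extChartAt 𝓘(ℝ, E) p).target :=
      contMDiffOn_vectorSpace_iff_contDiffOn.2 contDiffOn_const
    have h2 := (hT.comp h1 fun y hy => hy).contMDiffAt (ho.mem_nhds hy)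
    refine h2.congr_of_eventuallyEq ?_
    filter_upwards [ho.mem_nhds hy] with y hy'
    simp only [Function.comp_apply, tangentMapWithin]
    rw [mfderivWithin_of_isOpen ho hy']
  suffices h : ContDiffOn ℝ 2 (metricInChart g p) (extChartAt 𝓘(ℝ, E) p).target from
    h.contDiffAt (ho.mem_nhds hy)
  refine contDiffOn_clm_apply.2 fun u => contDiffOn_clm_apply.2 fun w => ?_
  intro y₁ hy₁
  refine ContDiffAt.contDiffWithinAt ?_
  have hg : ContMDiffAt 𝓘(ℝ, E) (𝓘(ℝ, E).prod 𝓘(ℝ, E →L[ℝ] E →L[ℝ] ℝ)) 2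
      (fun b => TotalSpace.mk' (E →L[ℝ] E →L[ℝ] ℝ) b (g.inner b)) (ψ y₁) :=
    (g.contMDiff.of_le (by norm_cast)).contMDiffAt
  have hψat : ContMDiffAt 𝓘(ℝ, E) 𝓘(ℝ, E) 2 ψ y₁ :=
    (hψs.contMDiffAt (ho.mem_nhds hy₁)).of_le (by norm_cast)
  have h3 : ContMDiffAt 𝓘(ℝ, E) (𝓘(ℝ, E).prod 𝓘(ℝ)) 2
      (fun y => TotalSpace.mk' ℝ (E := Bundle.Trivial M ℝ) (ψ y)
        (g.inner (ψ y) (mfderiv 𝓘(ℝ, E) 𝓘(ℝ, E) ψ y u) (mfderiv 𝓘(ℝ, E) 𝓘(ℝ, E) ψ y w))) y₁ := by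
    apply ContMDiffAt.clm_bundle_apply₂ (F₁ := E) (F₂ := E)
    · exact hg.comp y₁ hψat
    · exact hv u y₁ hy₁
    · exact hv w y₁ hy₁
  simp only [contMDiffAt_totalSpace] at h3
  exact h3.2.contDiffAt

/-- A flow of a smooth one-parameter group of isometries. -/
structure IsFlow (g : ContMDiffRiemannianMetric 𝓘(ℝ, E) ∞ E (fun x : M => TangentSpace 𝓘(ℝ, E) x))
    (φ : ℝ → M → M) : Prop where
  zero : ∀ x, φ 0 x = x
  add : ∀ s t x, φ (s + t) x = φ s (φ t x)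
  smooth : ContMDiff (𝓘(ℝ, ℝ).prod 𝓘(ℝ, E)) 𝓘(ℝ, E) ∞ (fun q : ℝ × M => φ q.1 q.2)
  isometry : ∀ t, IsLocalIsometry g (φ t)

/-- The velocity field of a flow. -/
def velocity (φ : ℝ → M → M) (x : M) : TangentSpace 𝓘(ℝ, E) x :=
  (mfderiv 𝓘(ℝ, ℝ) 𝓘(ℝ, E) (fun s => φ s x) 0 (1 : ℝ) : E)

/-- The squared speed of a flow. -/
def speedSq (g : ContMDiffRiemannianMetric 𝓘(ℝ, E) ∞ E (fun x : M => TangentSpace 𝓘(ℝ, E) x))
    (φ : ℝ → M → M) (x : M) : ℝ :=
  g.inner x (velocity φ x) (velocity φ x)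

/-- A flow in the coordinates of the chart at `p`. -/
def flowInChart (φ : ℝ → M → M) (p : M) (q : ℝ × E) : E :=
  extChartAt 𝓘(ℝ, E) p (φ q.1 ((extChartAt 𝓘(ℝ, E) p).symm q.2))

/-- The velocity field of a flow in coordinates. -/
def velocityInChart (φ : ℝ → M → M) (p : M) (y : E) : E :=
  fderiv ℝ (flowInChart φ p) (0, y) (1, 0)

variable {φ : ℝ → M → M}

namespace IsFlow

variable (hφ : IsFlow g φ)
include hφ

omit [FiniteDimensional ℝ E]

theorem contMDiff_orbit (x : M) : ContMDiff 𝓘(ℝ, ℝ) 𝓘(ℝ, E) ∞ (fun s => φ s x) :=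
  hφ.smooth.comp (contMDiff_id.prodMk contMDiff_const)

theorem mdifferentiableAt_orbit (x : M) (t : ℝ) :
    MDifferentiableAt 𝓘(ℝ, ℝ) 𝓘(ℝ, E) (fun s => φ s x) t :=
  (hφ.contMDiff_orbit x).mdifferentiableAt (by simp)

theorem mfderiv_orbit (x : M) (t : ℝ) :
    (mfderiv 𝓘(ℝ, ℝ) 𝓘(ℝ, E) (fun s => φ s x) t (1 : ℝ) : E) = velocity φ (φ t x) := by
  have e : (fun s => φ s x) = (fun s => φ s (φ t x)) ∘ (fun s : ℝ => s + -t) := by
    funext s
    simp only [Function.comp_apply]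
    rw [← hφ.add]
    simp
  have hsh : HasMFDerivAt 𝓘(ℝ, ℝ) 𝓘(ℝ, ℝ) (fun s : ℝ => s + -t) t
      (ContinuousLinearMap.id ℝ ℝ) :=
    hasMFDerivAt_iff_hasFDerivAt.2 ((hasFDerivAt_id t).add_const (-t))
  have ho := (hφ.mdifferentiableAt_orbit (φ t x) (t + -t)).hasMFDerivAt
  have h := ho.comp t hsh
  rw [e, h.mfderiv]
  show (mfderiv 𝓘(ℝ, ℝ) 𝓘(ℝ, E) (fun s => φ s (φ t x)) (t + -t) (1 : ℝ) : E) =
    mfderiv 𝓘(ℝ, ℝ) 𝓘(ℝ, E) (fun s => φ s (φ t x)) 0 (1 : ℝ)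
  rw [add_neg_cancel]

theorem velocity_map (x : M) (t : ℝ) :
    (velocity φ (φ t x) : E) = mfderiv 𝓘(ℝ, E) 𝓘(ℝ, E) (φ t) x (velocity φ x) := by
  have e : (fun s => φ s (φ t x)) = φ t ∘ (fun s => φ s x) := by
    funext s
    simp only [Function.comp_apply, ← hφ.add, add_comm]
  have h0 : MDifferentiableAt 𝓘(ℝ, E) 𝓘(ℝ, E) (φ t) (φ 0 x) :=
    (hφ.isometry t).1.mdifferentiableAt (by simp)
  have h := mfderiv_comp (0 : ℝ) h0 (hφ.mdifferentiableAt_orbit x 0)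
  conv_lhs => unfold velocity
  rw [e, h, hφ.zero x]
  rfl

theorem speedSq_map (x : M) (t : ℝ) : speedSq g φ (φ t x) = speedSq g φ x := by
  unfold speedSq
  rw [hφ.velocity_map x t]
  exact (hφ.isometry t).2 x _ _

theorem eventually_chart {p : M} {y₀ : E} (hy : y₀ ∈ (extChartAt 𝓘(ℝ, E) p).target) :
    ∀ᶠ q : ℝ × E in 𝓝 (0, y₀),
      q.2 ∈ (extChartAt 𝓘(ℝ, E) p).target ∧
      φ q.1 ((extChartAt 𝓘(ℝ, E) p).symm q.2) ∈ (extChartAt 𝓘(ℝ, E) p).source ∧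
      ContDiffAt ℝ ∞ (flowInChart φ p) q := by
  have ho := isOpen_extChartAt_target (I := 𝓘(ℝ, E)) p
  have hs := isOpen_extChartAt_source (I := 𝓘(ℝ, E)) p
  have hsnd : ContinuousAt (Prod.snd : ℝ × E → E) (0, y₀) := continuousAt_snd
  have h1 : ∀ᶠ q : ℝ × E in 𝓝 (0, y₀), q.2 ∈ (extChartAt 𝓘(ℝ, E) p).target :=
    hsnd.eventually (ho.mem_nhds hy)
  have hinner : ∀ q : ℝ × E, q.2 ∈ (extChartAt 𝓘(ℝ, E) p).target →
      ContMDiffAt 𝓘(ℝ, ℝ × E) 𝓘(ℝ, E) ∞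
        (fun r : ℝ × E => φ r.1 ((extChartAt 𝓘(ℝ, E) p).symm r.2)) q := by
    intro q hq
    have ha : ContMDiffAt 𝓘(ℝ, E) 𝓘(ℝ, E) ∞ (extChartAt 𝓘(ℝ, E) p).symm q.2 :=
      (contMDiffOn_extChartAt_symm p).contMDiffAt (ho.mem_nhds hq)
    have hfst : ContMDiffAt 𝓘(ℝ, ℝ × E) 𝓘(ℝ, ℝ) ∞ (fun r : ℝ × E => r.1) q :=
      contDiffAt_fst.contMDiffAt
    have hsnd' : ContMDiffAt 𝓘(ℝ, ℝ × E) 𝓘(ℝ, E) ∞ (fun r : ℝ × E => r.2) q :=
      contDiffAt_snd.contMDiffAt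
    exact hφ.smooth.contMDiffAt.comp q (hfst.prodMk (ha.comp q hsnd'))
  have h2 : ∀ᶠ q : ℝ × E in 𝓝 (0, y₀),
      φ q.1 ((extChartAt 𝓘(ℝ, E) p).symm q.2) ∈ (extChartAt 𝓘(ℝ, E) p).source := by
    refine (hinner (0, y₀) hy).continuousAt.eventually (hs.mem_nhds ?_)
    simpa [hφ.zero] using (extChartAt 𝓘(ℝ, E) p).map_target hy
  filter_upwards [h1, h2] with q hq1 hq2
  refine ⟨hq1, hq2, contMDiffAt_iff_contDiffAt.1 ?_⟩
  exact (contMDiffAt_extChartAt' (by rwa [← extChartAt_source 𝓘(ℝ, E)])).comp q (hinner q hq1)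

theorem velocity_eq_inChart {p : M} {y : E} (hy : y ∈ (extChartAt 𝓘(ℝ, E) p).target) :
    (velocity φ ((extChartAt 𝓘(ℝ, E) p).symm y) : E) =
      mfderiv 𝓘(ℝ, E) 𝓘(ℝ, E) (extChartAt 𝓘(ℝ, E) p).symm y (velocityInChart (E := E) φ p y : E) := by
  have hev := hφ.eventually_chart hy
  have hc : ContinuousAt (fun s : ℝ => (s, y)) 0 :=
    (continuous_id.prodMk continuous_const).continuousAt
  have e : (fun s => φ s ((extChartAt 𝓘(ℝ, E) p).symm y)) =ᶠ[𝓝 (0 : ℝ)]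
      (extChartAt 𝓘(ℝ, E) p).symm ∘ (fun s => flowInChart φ p (s, y)) := by
    filter_upwards [hc.eventually hev] with s hs
    exact ((extChartAt 𝓘(ℝ, E) p).left_inv hs.2.1).symm
  have h0 : flowInChart φ p (0, y) = y := by
    simp only [flowInChart, hφ.zero]
    exact (extChartAt 𝓘(ℝ, E) p).right_inv hy
  have hF := (hev.self_of_nhds.2.2.differentiableAt (by simp)).hasFDerivAt
  have hd : HasFDerivAt (fun s : ℝ => flowInChart φ p (s, y))
      ((fderiv ℝ (flowInChart φ p) (0, y)).comp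
        ((ContinuousLinearMap.id ℝ ℝ).prod (0 : ℝ →L[ℝ] E))) 0 :=
    HasFDerivAt.comp (g := flowInChart φ p) (f := fun s : ℝ => (s, y)) (0 : ℝ) hF
      ((hasFDerivAt_id (0 : ℝ)).prodMk (hasFDerivAt_const y (0 : ℝ)))
  have hm := hasMFDerivAt_iff_hasFDerivAt.2 hd
  have hψ : HasMFDerivAt 𝓘(ℝ, E) 𝓘(ℝ, E) (extChartAt 𝓘(ℝ, E) p).symm
      (flowInChart φ p (0, y))
      (mfderiv 𝓘(ℝ, E) 𝓘(ℝ, E) (extChartAt 𝓘(ℝ, E) p).symm y) := by
    rw [h0]
    exact ((contMDiffOn_extChartAt_symm (n := ∞) p).contMDiffAt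
      ((isOpen_extChartAt_target p).mem_nhds hy)).mdifferentiableAt (by simp) |>.hasMFDerivAt
  have h := (hψ.comp (0 : ℝ) hm).congr_of_eventuallyEq e
  unfold velocity velocityInChart
  rw [h.mfderiv]
  rfl

end IsFlow

theorem speedSq_eq_inChart (hφ : IsFlow g φ) {p : M} {y : E}
    (hy : y ∈ (extChartAt 𝓘(ℝ, E) p).target) :
    speedSq g φ ((extChartAt 𝓘(ℝ, E) p).symm y) =
      metricInChart g p y (velocityInChart φ p y) (velocityInChart φ p y) := by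
  rw [metricInChart_apply]
  unfold speedSq
  rw [hφ.velocity_eq_inChart hy]

theorem contDiffAt_velocityInChart (hφ : IsFlow g φ) {p : M} {y : E}
    (hy : y ∈ (extChartAt 𝓘(ℝ, E) p).target) :
    ContDiffAt ℝ 2 (velocityInChart φ p) y := by
  have h := (hφ.eventually_chart hy).self_of_nhds.2.2.fderiv_right (m := 2) (by norm_cast)
  exact (h.comp y (contDiffAt_const.prodMk contDiffAt_id)).clm_apply contDiffAt_const

theorem continuous_inner_velocity (hφ : IsFlow g φ) {χ : ℝ → M → M} (hχ : IsFlow g χ) :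
    Continuous (fun x => g.inner x (velocity φ x) (velocity χ x)) := by
  refine continuous_iff_continuousAt.2 fun p => ?_
  have hs : p ∈ (extChartAt 𝓘(ℝ, E) p).source := mem_extChartAt_source p
  have ht := (extChartAt 𝓘(ℝ, E) p).map_source hs
  have hc : ContinuousAt
      (fun y => metricInChart g p y (velocityInChart φ p y) (velocityInChart χ p y))
      (extChartAt 𝓘(ℝ, E) p p) :=
    (((contDiffAt_metricInChart ht).clm_apply (contDiffAt_velocityInChart hφ ht)).clm_apply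
      (contDiffAt_velocityInChart hχ ht)).continuousAt
  refine (hc.comp (continuousAt_extChartAt (I := 𝓘(ℝ, E)) p)).congr ?_
  filter_upwards [extChartAt_source_mem_nhds (I := 𝓘(ℝ, E)) p] with x hx
  have hx' := (extChartAt 𝓘(ℝ, E) p).map_source hx
  simp only [Function.comp_apply]
  rw [metricInChart_apply, ← hφ.velocity_eq_inChart hx', ← hχ.velocity_eq_inChart hx',
    (extChartAt 𝓘(ℝ, E) p).left_inv hx]

theorem exists_velocity_ne_zero (hφ : IsFlow g φ) [T2Space M] {t : ℝ} {x : M} (h : φ t x ≠ x) :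
    ∃ y : M, (velocity φ y : E) ≠ 0 := by
  by_contra hall
  push Not at hall
  apply h
  have hc : IsLocallyConstant (fun s => φ s x) := by
    refine (IsLocallyConstant.iff_eventually_eq _).2 fun s₀ => ?_
    set q := φ s₀ x with hq
    have hs : q ∈ (extChartAt 𝓘(ℝ, E) q).source := mem_extChartAt_source q
    have hsrc : ∀ᶠ s in 𝓝 s₀, φ s x ∈ (extChartAt 𝓘(ℝ, E) q).source :=
      (hφ.contMDiff_orbit x).continuous.continuousAt.eventually (extChartAt_source_mem_nhds q)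
    have hd : ∀ᶠ s in 𝓝 s₀, HasDerivAt (fun r => extChartAt 𝓘(ℝ, E) q (φ r x)) 0 s := by
      filter_upwards [hsrc] with s hs'
      have ha : MDifferentiableAt 𝓘(ℝ, E) 𝓘(ℝ, E) (extChartAt 𝓘(ℝ, E) q) (φ s x) :=
        (contMDiffAt_extChartAt' (n := ∞)
          (by rwa [← extChartAt_source 𝓘(ℝ, E)])).mdifferentiableAt (by simp)
      have hcomp := ha.hasMFDerivAt.comp s (hφ.mdifferentiableAt_orbit x s).hasMFDerivAt
      have hf := hasMFDerivAt_iff_hasFDerivAt.1 hcomp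
      let T₁ : ℝ →L[ℝ] E := mfderiv 𝓘(ℝ, ℝ) 𝓘(ℝ, E) (fun r => φ r x) s
      let T₂ : E →L[ℝ] E := mfderiv 𝓘(ℝ, E) 𝓘(ℝ, E) (extChartAt 𝓘(ℝ, E) q) (φ s x)
      have hT : HasFDerivAt (fun r => extChartAt 𝓘(ℝ, E) q (φ r x)) (T₂.comp T₁) s := hf
      have h1 : T₁ 1 = 0 := (hφ.mfderiv_orbit x s).trans (hall _)
      simpa [h1] using hT.hasDerivAt
    obtain ⟨ε, hε, hball⟩ := Metric.eventually_nhds_iff_ball.1 (hd.and hsrc)
    rw [Metric.eventually_nhds_iff_ball]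
    refine ⟨ε, hε, fun s hs' => ?_⟩
    have heq := (Metric.isOpen_ball (x := s₀) (ε := ε)).is_const_of_deriv_eq_zero
      (convex_ball s₀ ε).isPreconnected
      (fun r hr => (hball r hr).1.differentiableAt.differentiableWithinAt)
      (fun r hr => (hball r hr).1.deriv) hs' (Metric.mem_ball_self hε)
    exact (extChartAt 𝓘(ℝ, E) q).injOn (hball s hs').2 hs heq
  have := hc.apply_eq_of_isPreconnected isPreconnected_univ (Set.mem_univ t) (Set.mem_univ 0)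
  rw [this, hφ.zero]

/-- The orbit of a maximum point of the squared speed is a geodesic. -/
theorem isGeodesic_orbit_of_max (hφ : IsFlow g φ) {p : M}
    (hmax : ∀ x, speedSq g φ x ≤ speedSq g φ p) :
    IsGeodesic g (fun t => φ t p) := by
  refine ⟨hφ.contMDiff_orbit p, fun t v => ?_⟩
  set q := φ t p with hq
  set y₀ := extChartAt 𝓘(ℝ, E) q q with hy₀
  have hs : q ∈ (extChartAt 𝓘(ℝ, E) q).source := mem_extChartAt_source q
  have hy : y₀ ∈ (extChartAt 𝓘(ℝ, E) q).target := (extChartAt 𝓘(ℝ, E) q).map_source hs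
  have hψ0 : (extChartAt 𝓘(ℝ, E) q).symm y₀ = q := (extChartAt 𝓘(ℝ, E) q).left_inv hs
  set F := flowInChart (E := E) φ q with hF
  have hev := hφ.eventually_chart hy
  have hc : ContinuousAt (fun s : ℝ => (s, y₀)) 0 :=
    (continuous_id.prodMk continuous_const).continuousAt
  have hc0 : ContinuousAt (fun y : E => ((0 : ℝ), y)) y₀ :=
    (continuous_const.prodMk continuous_id).continuousAt
  have hF0 : F (0, y₀) = y₀ := by simp [hF, flowInChart, hφ.zero, hψ0, hy₀]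
  have h0 : ∀ᶠ y in 𝓝 y₀, F (0, y) = y := by
    filter_upwards [(isOpen_extChartAt_target q).mem_nhds hy] with y hy'
    simp only [hF, flowInChart, hφ.zero]
    exact (extChartAt 𝓘(ℝ, E) q).right_inv hy'
  have hgroup : ∀ᶠ r : ℝ × ℝ in 𝓝 0, F (r.1 + r.2, y₀) = F (r.2, F (r.1, y₀)) := by
    have hc2 : ContinuousAt (fun r : ℝ × ℝ => (r.1, y₀)) 0 :=
      (continuous_fst.prodMk continuous_const).continuousAt
    filter_upwards [hc2.eventually hev] with r hr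
    simp only [hF, flowInChart]
    rw [(extChartAt 𝓘(ℝ, E) q).left_inv hr.2.1, ← hφ.add, add_comm r.2]
  have hiso : ∀ u w : E, ∀ᶠ s in 𝓝 (0 : ℝ),
      metricInChart g q (F (s, y₀)) (fderiv ℝ (fun y => F (s, y)) y₀ u)
        (fderiv ℝ (fun y => F (s, y)) y₀ w) = metricInChart g q y₀ u w := by
    intro u w
    filter_upwards [hc.eventually hev, hc.eventually hev.eventually_nhds] with s hs1 hs2
    have hsy : ContinuousAt (fun y : E => (s, y)) y₀ :=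
      (continuous_const.prodMk continuous_id).continuousAt
    have hsrc : φ s ((extChartAt 𝓘(ℝ, E) q).symm y₀) ∈ (extChartAt 𝓘(ℝ, E) q).source := hs1.2.1
    have htar : F (s, y₀) ∈ (extChartAt 𝓘(ℝ, E) q).target :=
      (extChartAt 𝓘(ℝ, E) q).map_source hsrc
    have hψy : HasMFDerivAt 𝓘(ℝ, E) 𝓘(ℝ, E) (extChartAt 𝓘(ℝ, E) q).symm y₀
        (mfderiv 𝓘(ℝ, E) 𝓘(ℝ, E) (extChartAt 𝓘(ℝ, E) q).symm y₀) :=
      ((contMDiffOn_extChartAt_symm (n := ∞) q).contMDiffAt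
        ((isOpen_extChartAt_target q).mem_nhds hy)).mdifferentiableAt (by simp) |>.hasMFDerivAt
    have hψF : HasMFDerivAt 𝓘(ℝ, E) 𝓘(ℝ, E) (extChartAt 𝓘(ℝ, E) q).symm (F (s, y₀))
        (mfderiv 𝓘(ℝ, E) 𝓘(ℝ, E) (extChartAt 𝓘(ℝ, E) q).symm (F (s, y₀))) :=
      ((contMDiffOn_extChartAt_symm (n := ∞) q).contMDiffAt
        ((isOpen_extChartAt_target q).mem_nhds htar)).mdifferentiableAt (by simp) |>.hasMFDerivAt
    have hFs : DifferentiableAt ℝ (fun y => F (s, y)) y₀ :=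
      (hs1.2.2.differentiableAt (by simp)).comp y₀
        ((differentiableAt_const s).prodMk differentiableAt_id)
    have hFm : HasMFDerivAt 𝓘(ℝ, E) 𝓘(ℝ, E) (fun y => F (s, y)) y₀
        (fderiv ℝ (fun y => F (s, y)) y₀) :=
      hasMFDerivAt_iff_hasFDerivAt.2 hFs.hasFDerivAt
    have hA := hψF.comp y₀ hFm
    have hφs : HasMFDerivAt 𝓘(ℝ, E) 𝓘(ℝ, E) (φ s) ((extChartAt 𝓘(ℝ, E) q).symm y₀)
        (mfderiv 𝓘(ℝ, E) 𝓘(ℝ, E) (φ s) ((extChartAt 𝓘(ℝ, E) q).symm y₀)) :=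
      ((hφ.isometry s).1.mdifferentiableAt (by simp)).hasMFDerivAt
    have hB := hφs.comp y₀ hψy
    have heq : ((extChartAt 𝓘(ℝ, E) q).symm ∘ fun y => F (s, y)) =ᶠ[𝓝 y₀]
        (φ s ∘ (extChartAt 𝓘(ℝ, E) q).symm) := by
      filter_upwards [hsy.eventually hs2] with y hy'
      exact (extChartAt 𝓘(ℝ, E) q).left_inv hy'.2.1
    have key := (hA.congr_of_eventuallyEq heq.symm).mfderiv.symm.trans hB.mfderiv
    have hpt : (extChartAt 𝓘(ℝ, E) q).symm (F (s, y₀)) =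
        φ s ((extChartAt 𝓘(ℝ, E) q).symm y₀) := (extChartAt 𝓘(ℝ, E) q).left_inv hsrc
    have ku := congrArg (fun T : E →L[ℝ] E => T u) key
    have kw := congrArg (fun T : E →L[ℝ] E => T w) key
    rw [metricInChart_apply, metricInChart_apply]
    erw [ku, kw]
    rw [hpt]
    exact (hφ.isometry s).2 _ _ _
  have hcrit : fderiv ℝ (fun y => metricInChart g q y (fderiv ℝ F (0, y) (1, 0))
      (fderiv ℝ F (0, y) (1, 0))) y₀ = 0 := by
    refine IsLocalMax.fderiv_eq_zero ?_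
    filter_upwards [(isOpen_extChartAt_target q).mem_nhds hy] with y hy'
    have e1 := speedSq_eq_inChart hφ hy'
    have e2 := speedSq_eq_inChart hφ hy
    rw [hψ0] at e2
    simp only [velocityInChart, ← hF] at e1 e2
    rw [← e1, ← e2, hq, hφ.speedSq_map]
    exact hmax _
  have hsymm : ∀ u w : E, metricInChart g q y₀ u w = metricInChart g q y₀ w u := fun u w => by
    rw [metricInChart_apply, metricInChart_apply]
    exact g.symm _ _ _
  have key := killing_orbit_eulerLagrange (metricInChart g q) F y₀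
    (contDiffAt_metricInChart hy) (hev.self_of_nhds.2.2.of_le (by norm_cast))
    hsymm h0 hgroup hiso hcrit v
  intro x
  have hx : x = fun s => F (s - t, y₀) := by
    funext s
    show extChartAt 𝓘(ℝ, E) q (φ s p) = flowInChart φ q (s - t, y₀)
    simp only [flowInChart, hψ0]
    rw [hq, ← hφ.add, sub_add_cancel]
  rw [hx]
  have hd : ∀ s, deriv (fun r => F (r - t, y₀)) s = deriv (fun r => F (r, y₀)) (s - t) :=
    fun s => deriv_comp_sub_const (f := fun r => F (r, y₀)) t s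
  simp only [hd]
  show deriv (fun s => metricInChart g q (F (s - t, y₀))
      (deriv (fun r => F (r, y₀)) (s - t)) v) t = _
  rw [deriv_comp_sub_const (f := fun s => metricInChart g q (F (s, y₀))
    (deriv (fun r => F (r, y₀)) s) v)]
  simpa using key

end

end Vale.Agent.P216
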