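import Vale.Agent.P216.Flow
import Mathlib.GroupTheory.Commutator.Basic
import Mathlib.GroupTheory.Abelianization.Defs
import Mathlib.Topology.Algebra.Order.Archimedean
import Mathlib.Analysis.Calculus.Deriv.Slope
import Mathlib.Analysis.Calculus.DSlope
import Mathlib.Topology.Algebra.MulAction
import Mathlib.Algebra.Field.Periodic
import Mathlib.Algebra.Order.ToIntervalMod
import Mathlib.Analysis.LocallyConvex.SeparatingDual
import Mathlib.Analysis.Normed.Module.HahnBanach
import Mathlib.Analysis.Calculus.Deriv.Add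

open Bundle Manifold Filter Set
open scoped ContDiff Topology

namespace Vale.Agent.P216

noncomputable section

variable {E : Type*} [NormedAddCommGroup E] [NormedSpace ℝ E] [FiniteDimensional ℝ E]
  {M : Type*} [TopologicalSpace M] [ChartedSpace E M] [IsManifold 𝓘(ℝ, E) ∞ M]
  {g : ContMDiffRiemannianMetric 𝓘(ℝ, E) ∞ E (fun x : M => TangentSpace 𝓘(ℝ, E) x)}
  {φ χ : ℝ → M → M}

omit [FiniteDimensional ℝ E] in
theorem IsLocalIsometry.comp {h k : M → M} (hh : IsLocalIsometry g h) (hk : IsLocalIsometry g k) :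
    IsLocalIsometry g (h ∘ k) := by
  refine ⟨hh.1.comp hk.1, fun x u w => ?_⟩
  rw [mfderiv_comp x (hh.1.mdifferentiableAt (by simp)) (hk.1.mdifferentiableAt (by simp))]
  exact (hh.2 (k x) _ _).trans (hk.2 x u w)

theorem isClosedGeodesic_orbit (hφ : IsFlow g φ) {p : M}
    (hmax : ∀ x, speedSq g φ x ≤ speedSq g φ p) (hpos : 0 < speedSq g φ p)
    {τ : ℝ} (hτ : 0 < τ) (hper : ∀ x, φ τ x = x) :
    IsClosedGeodesic g (fun t => φ t p) := by
  refine ⟨isGeodesic_orbit_of_max hφ hmax, ⟨τ, hτ, fun t => ?_⟩, ?_⟩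
  · simp [hφ.add, hper]
  · by_contra hall
    push Not at hall
    have e : (fun s => φ s p) = fun _ => p := by
      funext s
      rw [hall s 0, hφ.zero]
    have hv : velocity φ p = (0 : TangentSpace 𝓘(ℝ, E) p) := by
      show (mfderiv 𝓘(ℝ, ℝ) 𝓘(ℝ, E) (fun s => φ s p) 0 (1 : ℝ) : E) = 0
      rw [e, mfderiv_const]
      rfl
    simp [speedSq, hv] at hpos

omit [FiniteDimensional ℝ E] [IsManifold 𝓘(ℝ, E) ∞ M] in
theorem eq_of_hasMFDerivAt_zero [T2Space M] [IsManifold 𝓘(ℝ, E) 1 M] {c : ℝ → M}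
    (h : ∀ t, HasMFDerivAt 𝓘(ℝ, ℝ) 𝓘(ℝ, E) c t 0) (a b : ℝ) : c a = c b := by
  have hc : IsLocallyConstant c := by
    refine (IsLocallyConstant.iff_eventually_eq _).2 fun t₀ => ?_
    have hsrc : ∀ᶠ s in 𝓝 t₀, c s ∈ (extChartAt 𝓘(ℝ, E) (c t₀)).source :=
      (h t₀).continuousAt.eventually (extChartAt_source_mem_nhds (c t₀))
    have hd : ∀ᶠ s in 𝓝 t₀, HasDerivAt (extChartAt 𝓘(ℝ, E) (c t₀) ∘ c) 0 s := by
      filter_upwards [hsrc] with s hs
      have ha : MDifferentiableAt 𝓘(ℝ, E) 𝓘(ℝ, E) (extChartAt 𝓘(ℝ, E) (c t₀)) (c s) :=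
        mdifferentiableAt_extChartAt (by rwa [← extChartAt_source 𝓘(ℝ, E)])
      have hf := hasMFDerivAt_iff_hasFDerivAt.1 (ha.hasMFDerivAt.comp s (h s))
      have h' : HasFDerivAt (extChartAt 𝓘(ℝ, E) (c t₀) ∘ c) (0 : ℝ →L[ℝ] E) s := by
        let T : E →L[ℝ] E := mfderiv 𝓘(ℝ, E) 𝓘(ℝ, E) (extChartAt 𝓘(ℝ, E) (c t₀)) (c s)
        have hT : HasFDerivAt (extChartAt 𝓘(ℝ, E) (c t₀) ∘ c) (T.comp (0 : ℝ →L[ℝ] E)) s := hf
        simpa using hT
      simpa using h'.hasDerivAt
    obtain ⟨ε, hε, hball⟩ := Metric.eventually_nhds_iff_ball.1 (hd.and hsrc)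
    rw [Metric.eventually_nhds_iff_ball]
    refine ⟨ε, hε, fun s hs => ?_⟩
    have heq := (Metric.isOpen_ball (x := t₀) (ε := ε)).is_const_of_deriv_eq_zero
      (convex_ball t₀ ε).isPreconnected
      (fun r hr => (hball r hr).1.differentiableAt.differentiableWithinAt)
      (fun r hr => (hball r hr).1.deriv) hs (Metric.mem_ball_self hε)
    exact (extChartAt 𝓘(ℝ, E) (c t₀)).injOn (hball s hs).2 (mem_extChartAt_source _) heq
  exact hc.apply_eq_of_isPreconnected isPreconnected_univ (mem_univ a) (mem_univ b)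

/-- A second flow whose orbit runs inside the maximal orbit of the first, with the same speed,
is a reparametrisation `t ↦ ε t + s` of it. -/
theorem orbit_reparam [T2Space M] (hφ : IsFlow g φ) (hχ : IsFlow g χ) {p p' : M} {m τ : ℝ}
    (hm : 0 < m) (hφm : speedSq g φ p = m) (hχm : speedSq g χ p' = m)
    (hτ : 0 < τ) (hper : φ τ p = p)
    (hsub : ∀ t, ∃ u, φ u p = χ t p') :
    ∃ ε s : ℝ, (ε = 1 ∨ ε = -1) ∧ ∀ t, χ t p' = φ (ε * t + s) p := by
  -- the stabiliser of p
  let P : AddSubgroup ℝ :=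
    { carrier := {s | φ s p = p}
      add_mem' := fun {a b} (ha : φ a p = p) (hb : φ b p = p) =>
        show φ (a + b) p = p by rw [hφ.add, hb, ha]
      zero_mem' := hφ.zero p
      neg_mem' := fun {a} (ha : φ a p = p) => show φ (-a) p = p by
        conv_lhs => rw [← ha]
        rw [← hφ.add, neg_add_cancel, hφ.zero] }
  have hcont : Continuous fun s => φ s p := (hφ.contMDiff_orbit p).continuous
  have hvel : ∀ u, (velocity φ (φ u p) : E) ≠ 0 := by
    intro u h
    have e := hφ.speedSq_map p u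
    rw [hφm] at e
    have : speedSq g φ (φ u p) = 0 := by
      unfold speedSq
      rw [show velocity φ (φ u p) = (0 : TangentSpace 𝓘(ℝ, E) (φ u p)) from h]
      simp
    linarith
  obtain ⟨b, hb⟩ : ∃ b, P = AddSubgroup.closure {b} := by
    rcases P.dense_or_cyclic with hd | hc
    · exfalso
      have hclosed : IsClosed (P : Set ℝ) := isClosed_eq hcont continuous_const
      have huniv : (P : Set ℝ) = univ := by rw [← hclosed.closure_eq, hd.closure_eq]
      have e : (fun s => φ s p) = fun _ => p :=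
        funext fun s => (show s ∈ (P : Set ℝ) by rw [huniv]; trivial)
      apply hvel 0
      rw [← hφ.mfderiv_orbit p 0, e, mfderiv_const]
      rfl
    · exact hc
  have hbpos : 0 < |b| := by
    rw [abs_pos]
    intro h0
    have : τ ∈ P := hper
    rw [hb, AddSubgroup.mem_closure_singleton] at this
    obtain ⟨n, hn⟩ := this
    rw [h0, smul_zero] at hn
    linarith
  have hinj : ∀ u v, φ u p = φ v p → |u - v| ≤ |b| / 2 → u = v := by
    intro u v huv hle
    have hmem : u - v ∈ P := by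
      show φ (u - v) p = p
      rw [sub_eq_neg_add, hφ.add, huv, ← hφ.add, neg_add_cancel, hφ.zero]
    rw [hb, AddSubgroup.mem_closure_singleton] at hmem
    obtain ⟨n, hn⟩ := hmem
    by_contra hne
    have hn0 : n ≠ 0 := by rintro rfl; exact hne (sub_eq_zero.1 (by simpa using hn.symm))
    have : (1 : ℝ) ≤ |(n : ℝ)| := by exact_mod_cast Int.one_le_abs hn0
    rw [← hn, zsmul_eq_mul, abs_mul] at hle
    nlinarith
  have hperb : Function.Periodic (fun s => φ s p) |b| := by
    intro s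
    have : |b| ∈ P := by
      rw [hb, AddSubgroup.mem_closure_singleton]
      rcases abs_choice b with h | h
      · exact ⟨1, by rw [h]; simp⟩
      · exact ⟨-1, by rw [h]; simp⟩
    show φ (s + |b|) p = φ s p
    rw [hφ.add]
    exact congrArg _ this
  -- local lifts
  have hlift : ∀ t₀, ∃ (u : ℝ → ℝ) (a : ℝ), HasDerivAt u a t₀ ∧ ∀ t, χ t p' = φ (u t) p := by
    intro t₀
    obtain ⟨u₀, hu₀⟩ := hsub t₀
    have hex : ∀ t, ∃ v ∈ Icc (u₀ - |b| / 2) (u₀ + |b| / 2), χ t p' = φ v p := by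
      intro t
      obtain ⟨w, hw⟩ := hsub t
      obtain ⟨v, hv, e⟩ := hperb.exists_mem_Ico hbpos w (u₀ - |b| / 2)
      exact ⟨v, ⟨hv.1, by linarith [hv.2]⟩, hw.symm.trans e⟩
    choose u huI hu using hex
    have hut₀ : u t₀ = u₀ := by
      refine hinj _ _ ((hu t₀).symm.trans hu₀.symm) (abs_le.2 ?_)
      exact ⟨by linarith [(huI t₀).1], by linarith [(huI t₀).2]⟩
    have htend : Tendsto u (𝓝 t₀) (𝓝 u₀) := by
      rw [tendsto_nhds]
      intro U hU hmemU
      have hcomp : IsCompact ((fun s => φ s p) '' (Icc (u₀ - |b| / 2) (u₀ + |b| / 2) \ U)) :=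
        (isCompact_Icc.diff hU).image hcont
      have hnot : χ t₀ p' ∉ (fun s => φ s p) '' (Icc (u₀ - |b| / 2) (u₀ + |b| / 2) \ U) := by
        rintro ⟨v, ⟨hvI, hvU⟩, hv⟩
        have hvu : v = u₀ := hinj _ _ (hv.trans hu₀.symm)
          (abs_le.2 ⟨by linarith [hvI.1], by linarith [hvI.2]⟩)
        exact hvU (hvu ▸ hmemU)
      filter_upwards [(hχ.contMDiff_orbit p').continuous.continuousAt.eventually
        (hcomp.isClosed.isOpen_compl.mem_nhds hnot)] with t ht
      by_contra hnU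
      exact ht ⟨u t, ⟨huI t, hnU⟩, (hu t).symm⟩
    set y := χ t₀ p' with hy
    set κ := extChartAt 𝓘(ℝ, E) y with hκ
    have hysrc : y ∈ κ.source := mem_extChartAt_source y
    have hytar : κ y ∈ κ.target := κ.map_source hysrc
    have hκd : MDifferentiableAt 𝓘(ℝ, E) 𝓘(ℝ, E) κ y := mdifferentiableAt_extChartAt
      (mem_chart_source E y)
    set W : E := velocityInChart φ y (κ y) with hW
    have hW0 : W ≠ 0 := by
      intro h0
      have e := hφ.velocity_eq_inChart hytar
      rw [κ.left_inv hysrc] at e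
      let T : E →L[ℝ] E := mfderiv 𝓘(ℝ, E) 𝓘(ℝ, E) κ.symm (κ y)
      have e' : (velocity φ (φ u₀ p) : E) = T W := by rw [hu₀]; exact e
      exact hvel u₀ ((e'.trans (congrArg T h0)).trans T.map_zero)
    have hw : HasDerivAt (fun s => κ (φ s p)) W u₀ := by
      have hF : HasFDerivAt (flowInChart φ y) (fderiv ℝ (flowInChart φ y) (u₀ - u₀, κ y))
          (u₀ - u₀, κ y) := by
        rw [sub_self]
        exact ((hφ.eventually_chart hytar).self_of_nhds.2.2.differentiableAt (by simp)).hasFDerivAt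
      have h := HasFDerivAt.comp_hasDerivAt (l := flowInChart φ y)
        (f := fun s : ℝ => (s - u₀, κ y)) u₀ hF
        (((hasDerivAt_id u₀).sub_const u₀).prodMk (hasDerivAt_const u₀ (κ y)))
      have e : flowInChart φ y ∘ (fun s : ℝ => (s - u₀, κ y)) = fun s => κ (φ s p) := by
        funext s
        simp only [Function.comp_apply, flowInChart, ← hκ, κ.left_inv hysrc]
        rw [← hu₀, ← hφ.add, sub_add_cancel]
      rw [e, sub_self] at h
      exact h
    have hz : ∃ Z, HasDerivAt (fun s => κ (χ s p')) Z t₀ := by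
      have h := hκd.hasMFDerivAt.comp t₀ (hχ.mdifferentiableAt_orbit p' t₀).hasMFDerivAt
      let T₁ : ℝ →L[ℝ] E := mfderiv 𝓘(ℝ, ℝ) 𝓘(ℝ, E) (fun s => χ s p') t₀
      let T₂ : E →L[ℝ] E := mfderiv 𝓘(ℝ, E) 𝓘(ℝ, E) κ y
      have hT : HasFDerivAt (fun s => κ (χ s p')) (T₂.comp T₁) t₀ :=
        hasMFDerivAt_iff_hasFDerivAt.1 h
      exact ⟨_, hT.hasDerivAt⟩
    obtain ⟨Z, hZ⟩ := hz
    obtain ⟨ℓ, hℓ⟩ := SeparatingDual.exists_eq_one (R := ℝ) hW0
    refine ⟨u, ℓ Z, hasDerivAt_iff_tendsto_slope.2 ?_, hu⟩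
    set A : ℝ → E := fun t => dslope (fun s => κ (φ s p)) u₀ (u t) with hA
    have hAlim : Tendsto A (𝓝[≠] t₀) (𝓝 W) := by
      have hc : ContinuousAt (dslope (fun s => κ (φ s p)) u₀) u₀ :=
        continuousAt_dslope_same.2 hw.differentiableAt
      have h := (hc.tendsto.comp htend).mono_left (nhdsWithin_le_nhds (s := {t₀}ᶜ))
      simpa [dslope_same, hw.deriv, hA, Function.comp_def] using h
    have hslope : ∀ t, slope (fun s => κ (χ s p')) t₀ t = slope u t₀ t • A t := by
      intro t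
      simp only [slope, vsub_eq_sub, hA]
      rw [smul_assoc, hut₀, sub_smul_dslope, ← hu t, hu₀]
    have h1 : Tendsto (fun t => slope u t₀ t * ℓ (A t)) (𝓝[≠] t₀) (𝓝 (ℓ Z)) := by
      refine ((ℓ.continuous.tendsto Z).comp (hasDerivAt_iff_tendsto_slope.1 hZ)).congr fun t => ?_
      simp [hslope t]
    have h2 : Tendsto (fun t => ℓ (A t)) (𝓝[≠] t₀) (𝓝 1) := by
      simpa [Function.comp_def, hℓ] using (ℓ.continuous.tendsto W).comp hAlim
    have h3 := h1.div h2 one_ne_zero
    rw [div_one] at h3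
    refine h3.congr' ?_
    filter_upwards [h2.eventually_ne one_ne_zero] with t ht
    simp [ht]
  choose U α hU hUeq using hlift
  have hYeq : ∀ t, (velocity χ (χ t p') : E) = α t • (velocity φ (χ t p') : E) := by
    intro t
    have hh : HasMFDerivAt 𝓘(ℝ, ℝ) 𝓘(ℝ, E) ((fun s => φ s p) ∘ U t) t
        ((mfderiv 𝓘(ℝ, ℝ) 𝓘(ℝ, E) (fun s => φ s p) (U t t)).comp
          (ContinuousLinearMap.toSpanSingleton ℝ (α t))) :=
      (hφ.mdifferentiableAt_orbit p (U t t)).hasMFDerivAt.comp t
        (hasMFDerivAt_iff_hasFDerivAt.2 (hU t).hasFDerivAt)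
    have e : (fun s => χ s p') = (fun s => φ s p) ∘ U t := funext fun s => hUeq t s
    rw [← hχ.mfderiv_orbit p' t, e, hh.mfderiv, hUeq t t, ← hφ.mfderiv_orbit p (U t t)]
    let T : ℝ →L[ℝ] E := mfderiv 𝓘(ℝ, ℝ) 𝓘(ℝ, E) (fun s => φ s p) (U t t)
    show T (ContinuousLinearMap.toSpanSingleton ℝ (α t) 1) = α t • T 1
    rw [← T.map_smul]
    simp
  have hspeed : ∀ t, speedSq g φ (χ t p') = m := fun t => by rw [hUeq t t, hφ.speedSq_map, hφm]
  have hmix : ∀ t, g.inner (χ t p') (velocity χ (χ t p')) (velocity φ (χ t p')) = α t * m := by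
    intro t
    rw [show velocity χ (χ t p') = α t • velocity φ (χ t p') from hYeq t, map_smul,
      ← hspeed t]
    rfl
  have hsq : ∀ t, α t ^ 2 = 1 := by
    intro t
    have h := hχ.speedSq_map p' t
    rw [hχm] at h
    unfold speedSq at h
    rw [show velocity χ (χ t p') = α t • velocity φ (χ t p') from hYeq t] at h
    simp only [map_smul, ContinuousLinearMap.smul_apply, smul_eq_mul] at h
    rw [show g.inner (χ t p') (velocity φ (χ t p')) (velocity φ (χ t p')) = m from hspeed t] at h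
    apply mul_right_cancel₀ hm.ne'
    rw [one_mul]
    nth_rewrite 2 [← h]
    ring
  have hαc : Continuous α := by
    have h := ((continuous_inner_velocity hχ hφ).comp (hχ.contMDiff_orbit p').continuous).div_const m
    refine h.congr fun t => ?_
    simp only [Function.comp_apply]
    rw [hmix t, mul_div_assoc, div_self hm.ne', mul_one]
  obtain ⟨ε, hε, hα⟩ : ∃ ε : ℝ, (ε = 1 ∨ ε = -1) ∧ ∀ t, α t = ε := by
    rcases isPreconnected_univ.eq_or_eq_neg_of_sq_eq hαc.continuousOn
        (continuousOn_const (c := (1 : ℝ))) (fun t _ => by simpa using hsq t)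
        (fun {t} _ => one_ne_zero) with h | h
    · exact ⟨1, Or.inl rfl, fun t => h (mem_univ t)⟩
    · exact ⟨-1, Or.inr rfl, fun t => h (mem_univ t)⟩
  obtain ⟨s, hs⟩ := hsub 0
  refine ⟨ε, s, hε, fun t => ?_⟩
  have hq : ∀ r, HasMFDerivAt 𝓘(ℝ, ℝ) 𝓘(ℝ, E) (fun v => φ (-(ε * v)) (χ v p')) r 0 := by
    intro r
    have hd : HasDerivAt (fun v => -(ε * v) + U r v) 0 r := by
      have h := (((hasDerivAt_id r).const_mul ε).neg).add (hU r)
      simp [hα r] at h
      exact h
    have h := (hφ.mdifferentiableAt_orbit p (-(ε * r) + U r r)).hasMFDerivAt.comp r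
      (hasMFDerivAt_iff_hasFDerivAt.2 hd.hasFDerivAt)
    have e : (fun v => φ (-(ε * v)) (χ v p')) =
        (fun s => φ s p) ∘ (fun v => -(ε * v) + U r v) := by
      funext v
      simp only [Function.comp_apply, hφ.add, hUeq r v]
    rw [e]
    let T : ℝ →L[ℝ] E := mfderiv 𝓘(ℝ, ℝ) 𝓘(ℝ, E) (fun s => φ s p) (-(ε * r) + U r r)
    have hz : T.comp (ContinuousLinearMap.toSpanSingleton ℝ (0 : ℝ)) = 0 := by
      ext
      simp
    have h' : HasMFDerivAt 𝓘(ℝ, ℝ) 𝓘(ℝ, E)
        ((fun s => φ s p) ∘ fun v => -(ε * v) + U r v) r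
        (T.comp (ContinuousLinearMap.toSpanSingleton ℝ (0 : ℝ))) := h
    exact hz ▸ h' 
  have hc := eq_of_hasMFDerivAt_zero hq t 0
  simp only [mul_zero, neg_zero, hφ.zero] at hc
  calc χ t p' = φ (ε * t) (φ (-(ε * t)) (χ t p')) := by
        rw [← hφ.add, add_neg_cancel, hφ.zero]
    _ = φ (ε * t) (χ 0 p') := by rw [hc]
    _ = φ (ε * t + s) p := by rw [← hs, ← hφ.add]

omit [FiniteDimensional ℝ E] in
/-- Conjugating a flow by an isometry. -/
theorem isFlow_conj (hφ : IsFlow g φ) {h k : M → M} (hh : IsLocalIsometry g h)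
    (hk : IsLocalIsometry g k) (hhk : ∀ x, h (k x) = x) (hkh : ∀ x, k (h x) = x) :
    IsFlow g (fun s x => h (φ s (k x))) where
  zero x := by simp [hφ.zero, hhk]
  add s t x := by simp [hφ.add, hkh]
  smooth := hh.1.comp (hφ.smooth.comp (contMDiff_fst.prodMk (hk.1.comp contMDiff_snd)))
  isometry t := (hh.comp (hφ.isometry t)).comp hk

omit [FiniteDimensional ℝ E] in
theorem speedSq_conj (hφ : IsFlow g φ) {h k : M → M} (hh : IsLocalIsometry g h)
    (hkh : ∀ x, k (h x) = x) (x : M) :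
    speedSq g (fun s x => h (φ s (k x))) (h x) = speedSq g φ x := by
  have e : (fun s => h (φ s (k (h x)))) = h ∘ fun s => φ s x := by
    funext s
    simp [hkh]
  have h0 : MDifferentiableAt 𝓘(ℝ, E) 𝓘(ℝ, E) h (φ 0 x) := hh.1.mdifferentiableAt (by simp)
  have hd := mfderiv_comp (0 : ℝ) h0 (hφ.mdifferentiableAt_orbit x 0)
  have hv : (velocity (fun s x => h (φ s (k x))) (h x) : E) =
      mfderiv 𝓘(ℝ, E) 𝓘(ℝ, E) h x (velocity φ x) := by
    conv_lhs => unfold velocity
    rw [e, hd, hφ.zero x]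
    rfl
  unfold speedSq
  rw [hv]
  exact hh.2 x _ _

/-- Manifolds with a nonabelian connected isometry group have infinitely many closed geodesics. -/
theorem infinite_closedGeodesicImages [T2Space M] [CompactSpace M]
    {G : Type*} [Group G] [TopologicalSpace G] [IsTopologicalGroup G] [ConnectedSpace G]
    [MulAction G M] [ContinuousSMul G M]
    (hiso : ∀ a : G, IsLocalIsometry g (fun x : M => a • x))
    (ρ : ℝ → G) (hadd : ∀ s t, ρ (s + t) = ρ s * ρ t)
    (hsmooth : ContMDiff (𝓘(ℝ, ℝ).prod 𝓘(ℝ, E)) 𝓘(ℝ, E) ∞ (fun q : ℝ × M => ρ q.1 • q.2))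
    {τ : ℝ} (hτ : 0 < τ) (hper : ρ τ = 1) (hcomm : ∀ t, ρ t ∈ commutator G)
    (hmove : ∃ t, ∃ x : M, ρ t • x ≠ x) :
    (closedGeodesicImages g).Infinite := by
  have hρ0 : ρ 0 = 1 := by
    have h := hadd 0 0
    rw [add_zero] at h
    exact mul_left_cancel (a := ρ 0) (by rw [mul_one]; exact h.symm)
  let φ : ℝ → M → M := fun t x => ρ t • x
  have hφ : IsFlow g φ :=
    ⟨fun x => by simp [φ, hρ0], fun s t x => by simp [φ, hadd, mul_smul], hsmooth,
      fun t => hiso (ρ t)⟩
  obtain ⟨t₁, x₁, hx₁⟩ := hmove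
  haveI : Nonempty M := ⟨x₁⟩
  obtain ⟨p, hp⟩ := (continuous_inner_velocity hφ hφ).exists_forall_ge_of_hasCompactSupport
    (HasCompactSupport.of_compactSpace _)
  have hmax : ∀ x, speedSq g φ x ≤ speedSq g φ p := hp
  obtain ⟨x₂, hx₂⟩ := exists_velocity_ne_zero hφ (show φ t₁ x₁ ≠ x₁ from hx₁)
  have hm : 0 < speedSq g φ p := lt_of_lt_of_le (g.pos x₂ (velocity φ x₂) hx₂) (hmax x₂)
  have hperφ : ∀ x, φ τ x = x := fun x => by simp [φ, hper]
  have hperiod : Function.Periodic (fun t => φ t p) τ := fun t => by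
    show φ (t + τ) p = φ t p
    rw [hφ.add, hperφ]
  let C : Set M := range fun t => φ t p
  have hCc : IsClosed C := by
    have e : C = (fun t => φ t p) '' Icc 0 (0 + τ) :=
      (hperiod.image_Icc hτ 0).symm
    rw [e]
    exact (isCompact_Icc.image (hφ.contMDiff_orbit p).continuous).isClosed
  let χ : G → ℝ → M → M := fun a s x => a • φ s (a⁻¹ • x)
  have hχ : ∀ a, IsFlow g (χ a) := fun a =>
    isFlow_conj hφ (hiso a) (hiso a⁻¹) (fun x => smul_inv_smul a x) (fun x => inv_smul_smul a x)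
  have hχs : ∀ a x, speedSq g (χ a) (a • x) = speedSq g φ x := fun a x =>
    speedSq_conj hφ (hiso a) (fun x => inv_smul_smul a x) x
  have hmem : ∀ a : G, (fun x => a • x) '' C ∈ closedGeodesicImages g := by
    intro a
    refine ⟨fun t => χ a t (a • p), ?_, ?_⟩
    · refine isClosedGeodesic_orbit (hχ a) (fun x => ?_) (by rw [hχs]; exact hm) hτ
        (fun x => by simp [χ, hperφ])
      rw [hχs, ← smul_inv_smul a x, hχs]
      exact hmax _
    · simp [χ, C, ← range_comp, Function.comp_def]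
  intro hfin
  -- every group element preserves the orbit
  let B : Set M → Set G := fun S => {a | (fun x => a • x) '' C = S}
  have hBclosed : ∀ a₀ : G, IsClosed (B ((fun x => a₀ • x) '' C)) := by
    intro a₀
    set S := (fun x => a₀ • x) '' C with hS
    have hSc : IsClosed S := by
      have e : S = (fun x => a₀⁻¹ • x) ⁻¹' C := by
        ext x
        constructor
        · rintro ⟨y, hy, rfl⟩
          simpa using hy
        · intro hx
          exact ⟨a₀⁻¹ • x, hx, smul_inv_smul a₀ x⟩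
      rw [e]
      exact hCc.preimage (continuous_const_smul _)
    have e : B S = (⋂ x ∈ C, {a : G | a • x ∈ S}) ∩ ⋂ x ∈ S, {a : G | a⁻¹ • x ∈ C} := by
      ext a
      simp only [B, mem_ofPred_eq, mem_inter_iff, mem_iInter]
      constructor
      · intro h
        refine ⟨fun x hx => h ▸ mem_image_of_mem _ hx, fun x hx => ?_⟩
        rw [← h] at hx
        obtain ⟨y, hy, rfl⟩ := hx
        simpa using hy
      · rintro ⟨h1, h2⟩
        refine Subset.antisymm (image_subset_iff.2 h1) fun x hx => ?_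
        exact ⟨a⁻¹ • x, h2 x hx, smul_inv_smul a x⟩
    rw [e]
    refine (isClosed_biInter fun x _ => hSc.preimage (continuous_id.smul continuous_const)).inter
      (isClosed_biInter fun x _ => hCc.preimage (continuous_inv.smul continuous_const))
  have hinv : ∀ a : G, (fun x => a • x) '' C = C := by
    have h1 : B C = B ((fun x => (1 : G) • x) '' C) := by simp
    have hfinrange : (range fun a : G => (fun x => a • x) '' C).Finite :=
      hfin.subset (range_subset_iff.2 hmem)
    have hcompl : (B C)ᶜ = ⋃ S ∈ (range fun a : G => (fun x => a • x) '' C) \ {C}, B S := by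
      ext a
      simp [B]
    have hopen : IsOpen (B C) := by
      rw [← isClosed_compl_iff, hcompl]
      refine hfinrange.diff.isClosed_biUnion ?_
      rintro S ⟨⟨a₀, rfl⟩, -⟩
      exact hBclosed a₀
    have hclopen : IsClopen (B C) := ⟨h1 ▸ hBclosed 1, hopen⟩
    have huniv : B C = univ := hclopen.eq_univ ⟨1, by simp [B]⟩
    intro a
    exact (show a ∈ B C by rw [huniv]; trivial)
  -- hence acts on it by rotations
  let R : ℝ → Set G := fun ε =>
    {a | ∃ s ∈ Icc 0 τ, ∀ t, a • φ t p = φ (ε * t + s) p}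
  have hRclosed : ∀ ε, IsClosed (R ε) := by
    intro ε
    have hcl : IsClosed {q : G × Icc (0 : ℝ) τ | ∀ t, q.1 • φ t p = φ (ε * t + q.2) p} := by
      simp only [setOf_forall]
      refine isClosed_iInter fun t => isClosed_eq (continuous_fst.smul continuous_const) ?_
      exact (hφ.contMDiff_orbit p).continuous.comp
        (continuous_const.add (continuous_subtype_val.comp continuous_snd))
    have h := isClosedMap_fst_of_compactSpace _ hcl
    convert h using 1
    ext a
    constructor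
    · rintro ⟨s, hs, h⟩
      exact ⟨(a, ⟨s, hs⟩), h, rfl⟩
    · rintro ⟨⟨a', s, hs⟩, h, rfl⟩
      exact ⟨s, hs, h⟩
  have hrep : ∀ a : G, a ∈ R 1 ∨ a ∈ R (-1) := by
    intro a
    have e : ∀ t, χ a t (a • p) = a • φ t p := fun t => by simp [χ]
    obtain ⟨ε, s, hε, h⟩ := orbit_reparam hφ (hχ a) hm rfl (hχs a p) hτ (hperφ p) fun t => by
      rw [e]
      exact (hinv a).subset (mem_image_of_mem _ (mem_range_self t))
    have hr : a ∈ R ε := by
      refine ⟨toIcoMod hτ 0 s, ?_, fun t => ?_⟩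
      · have := toIcoMod_mem_Ico hτ 0 s
        exact ⟨this.1, by linarith [this.2]⟩
      · rw [← e, h, toIcoMod, add_sub]
        exact (hperiod.sub_zsmul_eq _).symm
    rcases hε with rfl | rfl
    · exact Or.inl hr
    · exact Or.inr hr
  have hdisj : ∀ a, a ∈ R 1 → a ∉ R (-1) := by
    rintro a ⟨s, -, hs⟩ ⟨s', -, hs'⟩
    obtain ⟨t, ht⟩ : ∃ t, φ t p ≠ p := by
      obtain ⟨-, -, u, v, huv⟩ := isClosedGeodesic_orbit hφ hmax hm hτ hperφ
      by_contra hall
      push Not at hall
      exact huv ((hall u).trans (hall v).symm)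
    apply ht
    set r := (t - (s - s')) / 2 with hr
    have h := (hs r).symm.trans (hs' r)
    have h' := congrArg (φ (-(-1 * r + s'))) h
    rw [← hφ.add, ← hφ.add, neg_add_cancel, hφ.zero] at h'
    convert h' using 2
    rw [hr]
    ring
  have hR1 : R 1 = univ := by
    have hcompl : (R 1)ᶜ = R (-1) := by
      ext a
      exact ⟨fun h => (hrep a).resolve_left h, fun h h1 => hdisj a h1 h⟩
    refine IsClopen.eq_univ ⟨hRclosed 1, ?_⟩ ⟨1, 0, ⟨le_rfl, hτ.le⟩, fun t => by simp⟩
    rw [← isClosed_compl_iff, hcompl]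
    exact hRclosed (-1)
  -- so the commutator subgroup fixes the orbit pointwise
  let K : Subgroup G :=
    { carrier := {a | ∀ t, a • φ t p = φ t p}
      mul_mem' := fun {a b} ha hb t => by rw [mul_smul, hb, ha]
      one_mem' := fun t => one_smul G _
      inv_mem' := fun {a} ha t => by rw [inv_smul_eq_iff, ha] }
  have hle : commutator G ≤ K := by
    rw [commutator_def, Subgroup.commutator_le]
    intro a _ b _ t
    obtain ⟨s, -, hs⟩ : a ∈ R 1 := by rw [hR1]; trivial
    obtain ⟨s', -, hs'⟩ : b ∈ R 1 := by rw [hR1]; trivial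
    simp only [one_mul] at hs hs'
    have hab : ∀ r, (a * b) • φ r p = (b * a) • φ r p := fun r => by
      rw [mul_smul, mul_smul, hs', hs, hs, hs', add_right_comm]
    rw [commutatorElement_def, mul_assoc, ← mul_inv_rev, mul_smul]
    obtain ⟨u, hu⟩ : ∃ u, φ u p = (b * a)⁻¹ • φ t p := by
      refine ⟨t - s - s', ?_⟩
      rw [eq_inv_smul_iff, mul_smul, hs, hs']
      congr 1
      ring
    rw [← hu, hab, hu, smul_inv_smul]
  obtain ⟨t, ht⟩ : ∃ t, φ t p ≠ p := by
    obtain ⟨-, -, u, v, huv⟩ := isClosedGeodesic_orbit hφ hmax hm hτ hperφ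
    by_contra hall
    push Not at hall
    exact huv ((hall u).trans (hall v).symm)
  have := hle (hcomm t) 0
  rw [hφ.zero] at this
  exact ht this

end

end Vale.Agent.P216
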